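import Vale.Agent.P272.K.T4.L3NF
import Vale.Agent.P272.K.T4.L5Iface
import Vale.Agent.P272.K.Asm.Weak
import Vale.Agent.P272.K.AMP.Iface

/-! AMP-NF (full ampleness for a Hermitian metric of nonpositive holomorphic sectional curvature on a
hyperbolic Kähler manifold): weighted versions of the T4 estimates, definitions and block
statements. -/

open scoped Manifold ContDiff ComplexOrder Topology
open Set Filter MeasureTheory

noncomputable section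

namespace Vale.Agent.P272.K.AMP.NF

open INT (IsDensity intX)
open T4

variable {n : ℕ} {X : Type*} [TopologicalSpace X] [ChartedSpace (Cm n) X]

section
variable [IsManifold 𝓘(ℂ, Cm n) ω X] [T2Space X] [CompactSpace X]

/-- `∫ ρ E_g(|Γ_h - Γ_g|² - R^h) dv_g` -/
def IP (χ : ℝ → ℝ) (g h : Chart n X → Cm n → Matrix (Fin n) (Fin n) ℂ) (ρ : X → ℝ) : ℝ :=
  intX fun e z => ρ (e.symm z) *
    (Eg χ g (fun e z w => Pq g h e z w + Rq h e z w) e z * dt g e z)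

/-- `∫ ρ <Ric_g + g, h>_g dv_g` -/
def IM (g h : Chart n X → Cm n → Matrix (Fin n) (Fin n) ℂ) (ρ : X → ℝ) : ℝ :=
  intX fun e z => ρ (e.symm z) * (Ml (g e) (h e) z * dt g e z)

/-- `∫ ρ (tr_g h)^k dv_g` -/
def IT (k : ℕ) (g h : Chart n X → Cm n → Matrix (Fin n) (Fin n) ℂ) (ρ : X → ℝ) : ℝ :=
  intX fun e z => ρ (e.symm z) * (Tr g h e z ^ k * dt g e z)

/-- `∫ ρ⁻¹ |∂ρ|² tr_g h dv_g` -/
def IG (g h : Chart n X → Cm n → Matrix (Fin n) (Fin n) ℂ) (ρ : X → ℝ) : ℝ :=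
  intX fun e z => gradE g ρ ρ e z / ρ (e.symm z) * (Tr g h e z * dt g e z)

end

/-- the coercivity of `T4/L3NF.lean` with the bound `|F| ≤ C |w|³` in addition -/
def CoerN (h : Chart n X → Cm n → Matrix (Fin n) (Fin n) ℂ) : Prop :=
  ∃ (c C : ℝ) (F₁ F₂ : Chart n X → Cm n → Cm n → ℝ), 0 ≤ c ∧ 0 ≤ C ∧
      SmTFun F₁ ∧ SmTFun F₂ ∧
      (∀ e x w v, At e x → |Wd F₁ e (e x) w v| ≤ C * nq h e (e x) w * √(nq h e (e x) v)) ∧
      (∀ e x w v, At e x → |Wd F₂ e (e x) w v| ≤ C * nq h e (e x) w * √(nq h e (e x) v)) ∧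
      (∀ e x w, At e x → |F₁ e (e x) w| ≤ C * nq h e (e x) w * √(nq h e (e x) w)) ∧
      (∀ e x w, At e x → |F₂ e (e x) w| ≤ C * nq h e (e x) w * √(nq h e (e x) w)) ∧
      ∀ e x w, At e x → nq h e (e x) w ^ 2 ≤
        C + c * Dq h e (e x) w + Yd h 1 F₁ e (e x) w + Yd h Complex.I F₂ e (e x) w

/-- N3: replace `F` by `F - F(·,0)` (spray at `w = 0` vanishes, `|d(F(·,0))(bw)| ≤ C|w|`) -/
def N3 (n : ℕ) (X : Type) [TopologicalSpace X] [T2Space X] [CompactSpace X]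
    [ChartedSpace (Cm n) X] [IsManifold 𝓘(ℂ, Cm n) ω X] : Prop :=
  ∀ (h : Chart n X → Cm n → Matrix (Fin n) (Fin n) ℂ) (_ : IsHermitian h), Coercive h → CoerN h

/-- N1: the weighted weak identity (`P1.weak_eq` with cutoffs `ρ ρ_i`, then the 4th moments) -/
def N1 (n : ℕ) (X : Type) [TopologicalSpace X] [T2Space X] [CompactSpace X]
    [ChartedSpace (Cm n) X] [IsManifold 𝓘(ℂ, Cm n) ω X] : Prop :=
  ∀ (χ : ℝ → ℝ) (_ : Wt χ), ∃ c₀ : ℝ, 0 < c₀ ∧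
    ∀ (h : Chart n X → Cm n → Matrix (Fin n) (Fin n) ℂ) (_ : IsHermitian h)
      (g : Chart n X → Cm n → Matrix (Fin n) (Fin n) ℂ) (_ : IsKahler g)
      (ρ : X → ℝ) (_ : SmoothFn (n := n) ρ),
    IP χ g h ρ + 2 * c₀ * IM g h ρ = c₀ * intX (Qd g h ρ) + 2 * c₀ * IT 1 g h ρ

/-- N2: the weighted version of `L5Statement` -/
def N2 (n : ℕ) (X : Type) [TopologicalSpace X] [T2Space X] [CompactSpace X]
    [ChartedSpace (Cm n) X] [IsManifold 𝓘(ℂ, Cm n) ω X] : Prop :=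
  ∀ (χ : ℝ → ℝ) (_ : Wt χ) (h : Chart n X → Cm n → Matrix (Fin n) (Fin n) ℂ) (_ : IsHermitian h)
    (_ : NonposHSC h) (ε : ℝ), 0 < ε → ∃ C : ℝ, 0 ≤ C ∧
      ∀ (g : Chart n X → Cm n → Matrix (Fin n) (Fin n) ℂ) (_ : IsKahler g) (_ : RicGe g)
        (ρ : X → ℝ) (_ : SmoothFn (n := n) ρ) (_ : ∀ x, 0 < ρ x),
      intX (fun e z => ρ (e.symm z) * (Eg χ g (Dq h) e z * dt g e z)) ≤
        ε * IT 2 g h ρ + C * (IT 0 g h ρ + IP χ g h ρ + IM g h ρ + IG g h ρ)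

/-- N4: the weighted `L²` bound (from L1 with `ρ F`, N2, N3, moments) -/
def N4 (n : ℕ) (X : Type) [TopologicalSpace X] [T2Space X] [CompactSpace X]
    [ChartedSpace (Cm n) X] [IsManifold 𝓘(ℂ, Cm n) ω X] : Prop :=
  ∀ (h : Chart n X → Cm n → Matrix (Fin n) (Fin n) ℂ) (_ : IsHermitian h) (_ : NonposHSC h)
    (_ : CoerN h), ∃ (χ : ℝ → ℝ) (C : ℝ), Wt χ ∧ 0 ≤ C ∧
      ∀ (g : Chart n X → Cm n → Matrix (Fin n) (Fin n) ℂ) (_ : IsKahler g) (_ : RicGe g)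
        (ρ : X → ℝ) (_ : SmoothFn (n := n) ρ) (_ : ∀ x, 0 < ρ x),
      IT 2 g h ρ ≤ C * (IT 0 g h ρ + IP χ g h ρ + IM g h ρ + IG g h ρ)

end Vale.Agent.P272.K.AMP.NF
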